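import Vale.Agent.P263.FR.H285.IntCartan
import Vale.Agent.P263.FR.PhiB
import Vale.Agent.P263.FR.H754.LamG
import Vale.Agent.P263.FR.H850.Two
import Vale.Agent.P263.FR.H663.BoolC

/-!
# P263, V5: the quadratic form of the union

`Phi_form` : for `G : (ℝᴷ × M)⁺ → (ℝᴷ × (M × Bool))⁺`, the union of the inclusion `G₀ ~ (x, true)` and
of `G₁`, such that `pr ∘ G` is the graph of the Kahn-Priddy map,
`Phi (G ∘ c) z = Phi c z₊ + Phi c z₋ + Int c (w^q z₋)`.
-/

open Finset OnePoint Topology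

namespace Vale.Agent.P263.FR.H285

open Vale.Agent.P263.S hiding sn sn_add
open Vale.Agent.P263.E Vale.Agent.P263.G2 Vale.Agent.P263.TJ Vale.Agent.P263.KJ
open Vale.Agent.P263.T0 CupC

section thmA

variable {P : Type} [TopologicalSpace P] [CompactSpace P] [T2Space P]
  {Q : Type} [TopologicalSpace Q] [CompactSpace Q] [T2Space Q] {i q : ℕ} (l : C(P, Q))
  {z : Cc (sing Q)} (hz : Cc.IsDeg q z) (dz : Cc.d z = 0)
  (hx : Cc.IsDeg q (Cc.pull (singMap l) z)) (dx : Cc.d (Cc.pull (singMap l) z) = 0)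

/-- the pulled back data -/
noncomputable def jRl : SqD (bsT (i + 1) P) (i + 1) :=
  (jR i hz dz).pull (singMap (thm l)) fun x hx => L_base (thm_infty l) x hx

theorem jRl_b : (jRl (i := i) l hz dz).b = Cc.pull (singMap (thm l)) (jR i hz dz).b := rfl

theorem DstN_jRl : (Cc.cupC (sing P)).Coh
    (DstN (i + 1) (Cc.pull (muT (i + 1) P) (jRl (i := i) l hz dz).b))
    (DstN (i + 1) (Cc.pull (muT (i + 1) P) (jR i hx dx).b)) := by
  have h1 : DstN (i + 1) (Cc.pull (muT (i + 1) P) (jRl (i := i) l hz dz).b) =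
      Cc.pull (singMap l) (DstN (i + 1) (Cc.pull (muT (i + 1) Q) (jR i hz dz).b)) :=
    DstN_thm l
  rw [h1]
  exact ((DstN_jR hz dz).map (Cc.pullHom (singMap l))).trans (DstN_jR hx dx).symm

theorem theta_jRl : (Cc.cupC (sing P)).Coh (theta (jRl (i := i) l hz dz) (muT (i + 1) P)
    fun _ h => muT_infty (i + 1) P h) 0 := by
  have h2 := (theta_thm l (jR i hz dz)).trans ((theta_jR hz dz).map (Cc.pullHom (singMap l)))
  rw [map_zero] at h2
  exact (theta_map (singMap (thm l)) (fun x hx => L_base (thm_infty l) x hx) (jR i hz dz)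
      (hm := fun _ h => muT_infty (i + 1) P h) rfl).trans h2

/-- **the data along a map of spaces** -/
theorem theta_thmA {X : SS} {m : SS.Map (X.prod (SN (i + 1))) (sing (TT (i + 1) P))}
    (hm : ∀ {p : ℕ} (x : (X.prod (SN (i + 1))).obj p), (bdX X (i + 1)).mem x →
      (bsT (i + 1) P).mem (m.app x))
    (hm' : ∀ {p : ℕ} (x : (X.prod (SN (i + 1))).obj p), (bdX X (i + 1)).mem x →
      (bsT (i + 1) Q).mem (((singMap (thm l)).comp m).app x)) :
    (Cc.cupC X).Coh (theta (jR i hz dz) ((singMap (thm l)).comp m) hm')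
      (theta (jR i hx dx) m hm) := by
  have h1 : (Cc.cupC X).Coh (theta (jRl (i := i) l hz dz) m hm)
      (theta (jR i hz dz) ((singMap (thm l)).comp m) hm') :=
    theta_map (singMap (thm l)) (fun x hx => L_base (thm_infty l) x hx) (jR i hz dz) rfl
  refine h1.symm.trans ?_
  have h2 := theta_ind (D := jRl (i := i) l hz dz) (D' := jR i hx dx)
    (DstN_jRl l hz dz hx dx) (u := 0) (fun _ _ _ => rfl) d_zero (by
      rw [pull_zero, DstN_zero]
      exact coh_add_null (theta_jRl l hz dz) (theta_jR hx dx)) (m := m) hm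
  rw [pull_zero, DstN_zero] at h2
  obtain ⟨a, ha⟩ := coh_zero.1 h2
  exact ⟨a, ha⟩

theorem DstN_thmA {X : SS} {m : SS.Map (X.prod (SN (i + 1))) (sing (TT (i + 1) P))}
    (hm : ∀ {p : ℕ} (x : (X.prod (SN (i + 1))).obj p), (bdX X (i + 1)).mem x →
      (bsT (i + 1) P).mem (m.app x)) :
    (Cc.cupC X).Coh
      (DstN (i + 1) (Cc.pull ((singMap (thm l)).comp m) (jR i hz dz).b))
      (DstN (i + 1) (Cc.pull m (jR i hx dx).b)) :=
  DstN_ind (w := (jRl (i := i) l hz dz).b) (jRl (i := i) l hz dz).vn_b (jRl (i := i) l hz dz).d_b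
    (jR i hx dx).vn_b (jR i hx dx).d_b (DstN_jRl l hz dz hx dx) hm

end thmA

section based

variable {M : Type} [TopologicalSpace M] [CompactSpace M] [T2Space M]
  {N : Type} [TopologicalSpace N] [CompactSpace N] [T2Space N] {i q : ℕ}
  {G G' : C(TT (i + 1) M, TT (i + 1) N)} (hG : G ∞ = ∞) (hG' : G' ∞ = ∞)

theorem muT_inf {p : ℕ} {x : ((sing M).prod (SN (i + 1))).obj p}
    (hx : (bdX (sing M) (i + 1)).mem x) (t : Dl p) : toC ((muT (i + 1) M).app x) t = ∞ :=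
  muT_infty (i + 1) M hx t

theorem theta_htpB (D : SqD (bsT (i + 1) N) (i + 1)) (h : G.HomotopicRel G' {∞}) :
    (Cc.cupC (sing M)).Coh (theta D ((singMap G).comp (muT (i + 1) M)) (cub_base hG))
      (theta D ((singMap G').comp (muT (i + 1) M)) (cub_base hG')) := by
  obtain ⟨F⟩ := h
  refine theta_htpC D (muT (i + 1) M) F.toContinuousMap
    (fun a => F.apply_zero a) (fun a => F.apply_one a) (fun x hx s t => ?_)
  show F (s, _) = ∞
  rw [muT_inf hx t]
  exact homotopy_infty F hG s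

include hG in
theorem DstN_htpB {w : Cc (sing (TT (i + 1) N))} (hw : Vn (bsT (i + 1) N) w) (hdw : Cc.d w = 0)
    (h : G.HomotopicRel G' {∞}) :
    (Cc.cupC (sing M)).Coh (DstN (i + 1) (Cc.pull ((singMap G).comp (muT (i + 1) M)) w))
      (DstN (i + 1) (Cc.pull ((singMap G').comp (muT (i + 1) M)) w)) := by
  obtain ⟨F⟩ := h
  refine DstN_htpC hw hdw (muT (i + 1) M) F.toContinuousMap
    (fun a => F.apply_zero a) (fun a => F.apply_one a) fun x hx s t => ?_
  show F (s, _) = ∞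
  rw [muT_inf hx t]
  exact homotopy_infty F hG s

end based

section form

variable {M : Type} [TopologicalSpace M] [CompactSpace M] [T2Space M] {i q : ℕ}

/-- the projection -/
def fstB (M : Type) [TopologicalSpace M] : C(M × Bool, M) := ⟨Prod.fst, continuous_fst⟩

omit [CompactSpace M] [T2Space M] in
theorem pull_inB_fst (b : Bool) (y : Cc (sing M)) :
    Cc.pull (singMap (inB b)) (Cc.pull (singMap (fstB M)) y) = y := rfl

variable {G G₀ G₁ : C(TT (i + 1) M, TT (i + 1) (M × Bool))}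
  (h0 : G₀ ∞ = ∞) (h1 : G₁ ∞ = ∞)

section one

variable {z : Cc (sing (M × Bool))} (hz : Cc.IsDeg q z) (dz : Cc.d z = 0)
  {y : Cc (sing M)} (hy : Cc.IsDeg q y) (dy : Cc.d y = 0)

include hy dy in
/-- (1), the square -/
theorem theta_G0 (e0 : G₀.HomotopicRel (thm (inB true)) {∞})
    (hzy : Cc.pull (singMap (inB true)) z = y) :
    (Cc.cupC (sing M)).Coh (theta (jR i hz dz) ((singMap G₀).comp (muT (i + 1) M))
      (cub_base h0)) 0 := by
  subst hzy
  refine (theta_htpB h0 (thm_infty _) (jR i hz dz) e0).trans ?_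
  exact (theta_thmA (inB true) hz dz hy dy (fun _ h => muT_infty (i + 1) M h) _).trans
    (theta_jR hy dy)

include h0 hy dy in
/-- (1), the integral -/
theorem DstN_G0 (e0 : G₀.HomotopicRel (thm (inB true)) {∞})
    (hzy : Cc.pull (singMap (inB true)) z = y) :
    (Cc.cupC (sing M)).Coh (DstN (i + 1) (Cc.pull ((singMap G₀).comp (muT (i + 1) M))
      (jR i hz dz).b)) y := by
  subst hzy
  refine (DstN_htpB h0 (jR i hz dz).vn_b (jR i hz dz).d_b e0).trans ?_
  exact (DstN_thmA (inB true) hz dz hy dy (fun _ h => muT_infty (i + 1) M h)).trans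
    (DstN_jR hy dy)

/-- (2), the square -/
theorem theta_G1 (h1' : ((thm (fstB M)).comp G₁) ∞ = ∞)
    (e1 : G₁ = (thm (inB false)).comp ((thm (fstB M)).comp G₁))
    (hzy : Cc.pull (singMap (inB false)) z = y) :
    (Cc.cupC (sing M)).Coh (theta (jR i hz dz) ((singMap G₁).comp (muT (i + 1) M))
      (cub_base h1)) (theta (jR i hy dy) ((singMap ((thm (fstB M)).comp G₁)).comp
        (muT (i + 1) M)) (cub_base h1')) := by
  subst hzy
  have h2 : (singMap G₁).comp (muT (i + 1) M) = (singMap (thm (inB false))).comp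
      ((singMap ((thm (fstB M)).comp G₁)).comp (muT (i + 1) M)) :=
    congrArg (fun f : C(TT (i + 1) M, TT (i + 1) (M × Bool)) =>
      (singMap f).comp (muT (i + 1) M)) e1
  have h3 := theta_cgr (jR i hz dz) h2 (hm := cub_base h1) (hm' := by
    rw [← h2]; exact cub_base h1)
  rw [h3]
  exact theta_thmA (inB false) hz dz hy dy _ _

/-- (2), the integral -/
theorem DstN_G1 (h1' : ((thm (fstB M)).comp G₁) ∞ = ∞)
    (e1 : G₁ = (thm (inB false)).comp ((thm (fstB M)).comp G₁))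
    (hzy : Cc.pull (singMap (inB false)) z = y) :
    (Cc.cupC (sing M)).Coh (DstN (i + 1) (Cc.pull ((singMap G₁).comp (muT (i + 1) M))
      (jR i hz dz).b)) (DstN (i + 1) (Cc.pull ((singMap ((thm (fstB M)).comp G₁)).comp
        (muT (i + 1) M)) (jR i hy dy).b)) := by
  subst hzy
  have h2 : (singMap G₁).comp (muT (i + 1) M) = (singMap (thm (inB false))).comp
      ((singMap ((thm (fstB M)).comp G₁)).comp (muT (i + 1) M)) :=
    congrArg (fun f : C(TT (i + 1) M, TT (i + 1) (M × Bool)) =>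
      (singMap f).comp (muT (i + 1) M)) e1
  rw [h2]
  exact DstN_thmA (inB false) hz dz hy dy fun x hx => cub_base h1' x hx

end one

/-! ### the correction term -/

omit [CompactSpace M] [T2Space M] in
theorem Chh.move {X : SS} {a b c : Cc X} (h : Chh a (b + c)) : Chh b (a + c) := by
  obtain ⟨e, he⟩ := h
  exact ⟨e, by rw [← he]; abel⟩

theorem Chh.of {X : SS} {x y : Cc X} (h : (Cc.cupC X).Coh x y) : Chh x y := h

/-- the integral of a relative cocycle is a cocycle -/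
theorem d_DstN {N : Type} [TopologicalSpace N] [CompactSpace N] [T2Space N]
    {F : C(TT (i + 1) M, TT (i + 1) N)} (hF : F ∞ = ∞) {w : Cc (sing (TT (i + 1) N))}
    (hw : Vn (bsT (i + 1) N) w) (hdw : Cc.d w = 0) :
    Cc.d (DstN (i + 1) (Cc.pull ((singMap F).comp (muT (i + 1) M)) w)) = 0 := by
  rw [← DstN_d ((hw.pull _).mono fun x hx => cub_base hF x hx), ← pull_d, hdw, pull_zero,
    DstN_zero]

section main

variable {V : Type} [NormedAddCommGroup V] [InnerProductSpace ℝ V] [FiniteDimensional ℝ V]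
  {W : Type} [NormedAddCommGroup W] [NormedSpace ℝ W]
  {φ : (V × W) ≃L[ℝ] (Fin (i + 1) → ℝ)} {l : C(M, PV V)}
  {Lf : C(OnePoint ((Fin (i + 1) → ℝ) × PV V), T0.Sph (i + 1))} (hLf : IsLam φ Lf)
  {L : C(TT (i + 1) M, TT (i + 1) M)} (hL0 : L ∞ = ∞)
  (hL : ∀ (z : T0.Sph (i + 1)) (x : M), L (smP (i + 1) M (z, x)) =
    smP (i + 1) M (Lf (smP (i + 1) (PV V) (z, l x)), x))
  (hG : ∀ z, (G z = G₀ z ∧ G₁ z = ∞) ∨ (G z = G₁ z ∧ G₀ z = ∞)) (hGi : G ∞ = ∞)
  (e0 : G₀.HomotopicRel (thm (inB true)) {∞})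
  (e1 : G₁ = (thm (inB false)).comp ((thm (fstB M)).comp G₁))
  (eL : ((thm (fstB M)).comp G).HomotopicRel L {∞})

omit [T2Space M] in
theorem h1F (h1 : G₁ ∞ = ∞) : ((thm (fstB M)).comp G₁) ∞ = ∞ := by
  show thm (fstB M) (G₁ ∞) = ∞
  rw [h1]
  rfl

include h0 h1 hLf hL hG hGi e0 e1 eL in
/-- (3), the integral -/
theorem zeta {y : Cc (sing M)} (hy : Cc.IsDeg q y) (dy : Cc.d y = 0) :
    Chh (DstN (i + 1) (Cc.pull ((singMap ((thm (fstB M)).comp G₁)).comp
      (muT (i + 1) M)) (jR i hy dy).b)) y := by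
  have hz1 : Cc.IsDeg q (Cc.pull (singMap (fstB M)) y) := hy.pull _
  have dz1 : Cc.d (Cc.pull (singMap (fstB M)) y) = 0 := by rw [← pull_d, dy, pull_zero]
  have a1 := Chh.of (DstN_jR_two (i := i) hG h0 h1 hz1 dz1)
  have a2 := Chh.of (DstN_G0 h0 hz1 dz1 hy dy e0 (pull_inB_fst true y))
  have a3 := Chh.of (DstN_G1 hz1 dz1 hy dy (h1F h1) e1 (pull_inB_fst false y))
  have a4 := Chh.of (DstN_thmA (fstB M) hy dy hz1 dz1
    (m := (singMap G).comp (muT (i + 1) M)) fun x hx => cub_base hGi x hx)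
  have a5 := Chh.of (DstN_htpB (G := (thm (fstB M)).comp G) (h1F hGi) (jR i hy dy).vn_b
    (jR i hy dy).d_b eL)
  have a6 := Chh.of (DstN_lamG hLf hL hy dy)
  have a7 : Chh (0 : Cc (sing M)) _ := (a6.symm.trans (a5.symm.trans a4)).trans
    (a1.trans (a2.add a3))
  rw [add_comm] at a7
  have a8 := a7.move
  rw [zero_add] at a8
  exact a8

include h0 h1 hLf hL0 hL hG hGi e0 e1 eL in
/-- (3), the square -/
theorem theta_H1 {w : Cc (sing M)}
    (hwl : (Cc.cupC (sing M)).Coh (Cc.pull (singMap l) (wP V)) w)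
    {y : Cc (sing M)} (hy : Cc.IsDeg q y) (dy : Cc.d y = 0) :
    Chh (theta (jR i hy dy) ((singMap ((thm (fstB M)).comp G₁)).comp
      (muT (i + 1) M)) (cub_base (h1F h1)))
      (∑ k ∈ range (q + 1), Cc.cup 1 (Cc.pw w k) (Cc.cup (k + 1) y y) + Cc.cup 1 y y) := by
  have hz1 : Cc.IsDeg q (Cc.pull (singMap (fstB M)) y) := hy.pull _
  have dz1 : Cc.d (Cc.pull (singMap (fstB M)) y) = 0 := by rw [← pull_d, dy, pull_zero]
  have a1 := Chh.of (theta_jR_two (i := i) hG h0 h1 hz1 dz1 hGi)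
  have a2 : Chh _ (0 : Cc (sing M)) := theta_G0 h0 hz1 dz1 hy dy e0 (pull_inB_fst true y)
  have a3 := Chh.of (theta_G1 h1 hz1 dz1 hy dy (h1F h1) e1 (pull_inB_fst false y))
  have b2 := Chh.of (DstN_G0 h0 hz1 dz1 hy dy e0 (pull_inB_fst true y))
  have b3 := (Chh.of (DstN_G1 hz1 dz1 hy dy (h1F h1) e1 (pull_inB_fst false y))).trans
    (zeta h0 h1 hLf hL hG hGi e0 e1 eL hy dy)
  have b4 := Chh.of (coh_cup (d_DstN h0 (jR i hz1 dz1).vn_b (jR i hz1 dz1).d_b) dy b2 b3)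
  have a4 := Chh.of (theta_thmA (fstB M) hy dy hz1 dz1
    (m := (singMap G).comp (muT (i + 1) M)) (fun x hx => cub_base hGi x hx)
      fun x hx => cub_base (G := (thm (fstB M)).comp G) (h1F hGi) x hx)
  have a5 := Chh.of (theta_htpB (G := (thm (fstB M)).comp G) (h1F hGi) hL0 (jR i hy dy) eL)
  have a6 := Chh.of (theta_lamG_of_coh hLf hL0 hL hwl hy dy)
  have a7 := (a6.symm.trans (a5.symm.trans a4)).trans (a1.trans ((a2.add a3).add b4))
  rw [zero_add] at a7
  exact a7.move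

include h0 h1 hLf hL0 hL hG e0 e1 eL in
/-- (4), the square -/
theorem theta_G {w : Cc (sing M)}
    (hwl : (Cc.cupC (sing M)).Coh (Cc.pull (singMap l) (wP V)) w)
    {z : Cc (sing (M × Bool))} (hz : Cc.IsDeg q z) (dz : Cc.d z = 0)
    {zp zm : Cc (sing M)} (hp : Cc.IsDeg q zp) (dp : Cc.d zp = 0) (hm : Cc.IsDeg q zm)
    (dm : Cc.d zm = 0) (ep : Cc.pull (singMap (inB true)) z = zp)
    (em : Cc.pull (singMap (inB false)) z = zm) :
    Chh (theta (jR i hz dz) ((singMap G).comp (muT (i + 1) M)) (cub_base hGi))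
      (∑ k ∈ range (q + 1), Cc.cup 1 (Cc.pw w k) (Cc.cup (k + 1) zm zm) + Cc.cup 1 zm zm +
        Cc.cup 1 zp zm) := by
  have a1 := Chh.of (theta_jR_two (i := i) hG h0 h1 hz dz hGi)
  have a2 : Chh _ (0 : Cc (sing M)) := theta_G0 h0 hz dz hp dp e0 ep
  have a3 := Chh.of (theta_G1 h1 hz dz hm dm (h1F h1) e1 em)
  have b2 := Chh.of (DstN_G0 h0 hz dz hp dp e0 ep)
  have b3 := (Chh.of (DstN_G1 hz dz hm dm (h1F h1) e1 em)).trans
    (zeta h0 h1 hLf hL hG hGi e0 e1 eL hm dm)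
  have b4 := Chh.of (coh_cup (d_DstN h0 (jR i hz dz).vn_b (jR i hz dz).d_b) dm b2 b3)
  have a4 := theta_H1 h0 h1 hLf hL0 hL hG hGi e0 e1 eL hwl hm dm
  have a7 := a1.trans ((a2.add (a3.trans a4)).add b4)
  rw [zero_add] at a7
  exact a7

include hLf hL hG hGi e0 e1 eL h0 h1 in
/-- (4), the integral -/
theorem DstN_G {z : Cc (sing (M × Bool))} (hz : Cc.IsDeg q z) (dz : Cc.d z = 0)
    {zp zm : Cc (sing M)} (hp : Cc.IsDeg q zp) (dp : Cc.d zp = 0) (hm : Cc.IsDeg q zm)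
    (dm : Cc.d zm = 0) (ep : Cc.pull (singMap (inB true)) z = zp)
    (em : Cc.pull (singMap (inB false)) z = zm) :
    Chh (DstN (i + 1) (Cc.pull ((singMap G).comp (muT (i + 1) M)) (jR i hz dz).b)) (zp + zm) :=
  (Chh.of (DstN_jR_two (i := i) hG h0 h1 hz dz)).trans
    ((Chh.of (DstN_G0 h0 hz dz hp dp e0 ep)).add
      ((Chh.of (DstN_G1 hz dz hm dm (h1F h1) e1 em)).trans
        (zeta h0 h1 hLf hL hG hGi e0 e1 eL hm dm)))

include hLf hL0 hL hG hGi e0 e1 eL h0 h1 in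
/-- **The quadratic form of the union.** -/
theorem Phi_form {s d : ℕ} (hs : 0 < s) (hq : q = 2 ^ s - 1) (hdq : d = q + q)
    {w : Cc (sing M)} (w1 : Cc.IsDeg 1 w) (dw : Cc.d w = 0)
    (hwl : (Cc.cupC (sing M)).Coh (Cc.pull (singMap l) (wP V)) w)
    {c : C(Sph (d + (i + 1)), TT (i + 1) M)} (hc : c ∞ = ∞) {hGc : (G.comp c) ∞ = ∞}
    {z : Cc (sing (M × Bool))} (hz : Cc.IsDeg q z) (dz : Cc.d z = 0)
    {zp zm : Cc (sing M)} (hp : Cc.IsDeg q zp) (dp : Cc.d zp = 0) (hm : Cc.IsDeg q zm)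
    (dm : Cc.d zm = 0) (ep : Cc.pull (singMap (inB true)) z = zp)
    (em : Cc.pull (singMap (inB false)) z = zm)
    (k1 : Cc.IsDeg (q + q) (Cc.cup 1 (Cc.pw w q) zm)) (k2 : Cc.d (Cc.cup 1 (Cc.pw w q) zm) = 0) :
    Phi (G.comp c) hGc hz dz = Phi c hc hp dp + Phi c hc hm dm + Int c k1 k2 := by
  have hs2 : 2 ≤ 2 ^ s := by
    calc 2 = 2 ^ 1 := rfl
      _ ≤ 2 ^ s := Nat.pow_le_pow_right (by decide) hs
  have hd : 0 < d := by omega
  obtain ⟨S, hS⟩ : ∃ S, S = ∑ k ∈ range (q + 1), Cc.cup 1 (Cc.pw w k) (Cc.cup (k + 1) zm zm) :=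
    ⟨_, rfl⟩
  have S1 : Cc.IsDeg (q + q) S := by
    rw [hS]
    refine isDeg_sum _ fun k hk => ?_
    rw [mem_range] at hk
    have h3 : Cc.IsDeg (q + q - k) (Cc.cup (k + 1) zm zm) := hm.cup hm (by omega)
    exact (Cc.isDeg_pw_one w1 k).cup h3 (by omega)
  have S2 : Cc.d S = 0 := by
    rw [hS]
    refine d_sum0 _ fun k _ => ?_
    rw [d_cup_one, Cc.d_pw dw, d_cup_self0 _ dm, cup_zero_left, cup_zero_right, add_zero]
  have m1 : Cc.IsDeg (q + q) (Cc.cup 1 zm zm) := hm.cup hm (by omega)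
  have m2 : Cc.d (Cc.cup 1 zm zm) = 0 := d_cup_self0 _ dm
  have p1 : Cc.IsDeg (q + q) (Cc.cup 1 zp zm) := hp.cup hm (by omega)
  have p2 : Cc.d (Cc.cup 1 zp zm) = 0 := by
    rw [d_cup_one, dp, dm, cup_zero_left, cup_zero_right, add_zero]
  have t1 : Cc.IsDeg (q + q) (S + Cc.cup 1 zm zm) := S1.add m1
  have t2 : Cc.d (S + Cc.cup 1 zm zm) = 0 := by rw [d_add, S2, m2, add_zero]
  have κ1 : Cc.IsDeg (q + q) (S + Cc.cup 1 zm zm + Cc.cup 1 zp zm) := t1.add p1
  have κ2 : Cc.d (S + Cc.cup 1 zm zm + Cc.cup 1 zp zm) = 0 := by rw [d_add, t2, p2, add_zero]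
  have x1 : Cc.IsDeg q (zp + zm) := hp.add hm
  have x2 : Cc.d (zp + zm) = 0 := by rw [d_add, dp, dm, add_zero]
  have g1 := DstN_G h0 h1 hLf hL hG hGi e0 e1 eL hz dz hp dp hm dm ep em
  have g2 := theta_G h0 h1 hLf hL0 hL hG hGi e0 e1 eL hwl hz dz hp dp hm dm ep em
  rw [← hS] at g2
  have f1 := Phi_comp (c := c) (hc := hc) hGi hd hz dz x1 x2 g1 κ1 κ2 g2 (hLc := hGc)
  have f2 := Phi_add (c := c) (hc := hc) (by omega) (by omega) hp dp hm dm x1 x2 p1 p2
  have f3 := Int_add hd hc t1 t2 p1 p2 κ1 κ2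
  have f4 := Int_add hd hc S1 S2 m1 m2 t1 t2
  have f5 : Int c m1 m2 = 0 := Int_sq hc (by omega) (by omega) 1 hm dm m1 m2
  have f6 : Int c S1 S2 = Int c k1 k2 := by
    subst hS
    exact Int_corr hc hs hq hdq w1 dw hm dm S1 S2 k1 k2
  rw [f1, f2, f3, f4, f5, f6]
  have f7 := CharTwo.add_self_eq_zero (Int c p1 p2)
  linear_combination f7

end main

end form

end Vale.Agent.P263.FR.H285
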