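import Vale.Agent.P263.FR.H285.Form
import Vale.Agent.P263.FR.H663.QFc

/-!
# P263, V5: the quadratic form of the union, in the form of `count_of_form`

`hform_of` : the hypothesis `hform` of `count_of_form` with `w^q` in the place of `w`.
-/

open Finset OnePoint Topology

namespace Vale.Agent.P263.FR.H285

open Vale.Agent.P263.S hiding sn sn_add
open Vale.Agent.P263.E Vale.Agent.P263.G2 Vale.Agent.P263.TJ Vale.Agent.P263.KJ
open Vale.Agent.P263.T0 CupC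

variable {M : Type} [TopologicalSpace M] [CompactSpace M] [T2Space M] {i q : ℕ}
  {G G₀ G₁ : C(TT (i + 1) M, TT (i + 1) (M × Bool))}
  {V : Type} [NormedAddCommGroup V] [InnerProductSpace ℝ V] [FiniteDimensional ℝ V]
  {W : Type} [NormedAddCommGroup W] [NormedSpace ℝ W]
  {φ : (V × W) ≃L[ℝ] (Fin (i + 1) → ℝ)} {l : C(M, PV V)}
  {Lf : C(OnePoint ((Fin (i + 1) → ℝ) × PV V), T0.Sph (i + 1))}
  {L : C(TT (i + 1) M, TT (i + 1) M)}

theorem hform_of (h0 : G₀ ∞ = ∞) (h1 : G₁ ∞ = ∞) (hLf : IsLam φ Lf) (hL0 : L ∞ = ∞)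
    (hL : ∀ (z : T0.Sph (i + 1)) (x : M), L (smP (i + 1) M (z, x)) =
      smP (i + 1) M (Lf (smP (i + 1) (PV V) (z, l x)), x))
    (hG : ∀ z, (G z = G₀ z ∧ G₁ z = ∞) ∨ (G z = G₁ z ∧ G₀ z = ∞)) (hGi : G ∞ = ∞)
    (e0 : G₀.HomotopicRel (thm (inB true)) {∞})
    (e1 : G₁ = (thm (inB false)).comp ((thm (fstB M)).comp G₁))
    (eL : ((thm (fstB M)).comp G).HomotopicRel L {∞})
    {s d : ℕ} (hs : 0 < s) (hq : q = 2 ^ s - 1) (hdq : d = q + q)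
    {w : Cc (sing M)} (w1 : Cc.IsDeg 1 w) (dw : Cc.d w = 0)
    (hwl : (Cc.cupC (sing M)).Coh (Cc.pull (singMap l) (wP V)) w)
    {c : C(Sph (d + (i + 1)), TT (i + 1) M)} (hc : c ∞ = ∞) {cG : C(Sph (d + (i + 1)),
      TT (i + 1) (M × Bool))} (hcG : cG ∞ = ∞) (hcGc : cG = G.comp c)
    (hw : Cc.IsDeg q (Cc.pw w q)) (dwq : Cc.d (Cc.pw w q) = 0)
    (z : Cc (sing (M × Bool))) (hz : Cc.IsDeg q z) (dz : Cc.d z = 0)
    (p0 : Cc.IsDeg q (Cc.pull (singMap (inB true)) z))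
    (d0 : Cc.d (Cc.pull (singMap (inB true)) z) = 0)
    (p1 : Cc.IsDeg q (Cc.pull (singMap (inB false)) z))
    (d1 : Cc.d (Cc.pull (singMap (inB false)) z) = 0) :
    Phi cG hcG hz dz = Phi c hc p0 d0 + Phi c hc p1 d1 +
      Int c (isDeg_cup1 p1 hw) (d_cup1_zero d1 dwq) := by
  subst hcGc
  have hs2 : 2 ≤ 2 ^ s := by
    calc 2 = 2 ^ 1 := rfl
      _ ≤ 2 ^ s := Nat.pow_le_pow_right (by decide) hs
  rw [Phi_form h0 h1 hLf hL0 hL hG hGi e0 e1 eL hs hq hdq w1 dw hwl hc hz dz p0 d0 p1 d1 rfl rfl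
    (isDeg_cup1 hw p1) (d_cup1_zero dwq d1)]
  rw [Int_cup_comm (by omega) hc dwq d1 (isDeg_cup1 hw p1) (isDeg_cup1 p1 hw)
    (d_cup1_zero dwq d1) (d_cup1_zero d1 dwq)]

end Vale.Agent.P263.FR.H285
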