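import Vale.Agent.P263.FR.H285.IntSq
import Vale.Agent.P263.FR.H285.Cartan

/-!
# P263, V5-E3: the integral of the correction terms

`Int_corr` : for `q = 2^s - 1`, `0 < s`, `d = 2q`, `w` of degree `1`, `z` of degree `q`,
`Int c (∑_(k ≤ q) w^k (z ∪_k z)) = Int c (w^q z)`.
-/

open Finset OnePoint Topology

namespace Vale.Agent.P263.FR.H285

open Vale.Agent.P263.S hiding sn sn_add
open Vale.Agent.P263.E Vale.Agent.P263.G2 Vale.Agent.P263.TJ Vale.Agent.P263.KJ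
open Vale.Agent.P263.T0 CupC

/-- the top square is the identity -/
theorem cup_top {X : SS} {q : ℕ} {z : Cc X} (hz : Cc.IsDeg q z) : Cc.cup (q + 1) z z = z := by
  have h1 : Cc.IsDeg q (Cc.cup (q + 1) z z) := hz.cup hz (by omega)
  refine Cc.IsDeg.ext h1 hz ?_
  funext σ
  have hA : H83.fA (range (q + 1)) (range (q + 1)) = range (q + 1) := by
    ext v
    rw [H83.mem_fA]
    tauto
  have hB : H83.fB (range (q + 1)) (range (q + 1)) = range (q + 1) := by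
    ext v
    rw [H83.mem_fB]
    tauto
  have hp : powersetCard (q + 1) (range (q + 1)) = {range (q + 1)} := by
    have := powersetCard_self (range (q + 1))
    rwa [card_range] at this
  rw [Cc.cup_def, H83.cupJ, hp, sum_singleton, hA, hB, co_top]
  have h2 : ∀ a : ZMod 2, a * a = a := by decide
  exact h2 _

variable {P : Type} [TopologicalSpace P] [CompactSpace P] [T2Space P] {d i r : ℕ}
  {c : C(Sph (d + (i + 1)), TT (i + 1) P)}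

theorem isDeg_sum {X : SS} {ι : Type} (S : Finset ι) {f : ι → Cc X}
    (h : ∀ k ∈ S, Cc.IsDeg r (f k)) : Cc.IsDeg r (∑ k ∈ S, f k) := by
  classical
  induction S using Finset.induction_on with
  | empty => exact Cc.isDeg_zero r
  | insert a S ha ih =>
    rw [sum_insert ha]
    exact (h a (mem_insert_self _ _)).add (ih fun k hk => h k (mem_insert_of_mem hk))

theorem d_sum0 {X : SS} {ι : Type} (S : Finset ι) {f : ι → Cc X}
    (h : ∀ k ∈ S, Cc.d (f k) = 0) : Cc.d (∑ k ∈ S, f k) = 0 := by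
  rw [TJ.d_sum]
  exact sum_eq_zero h

/-- additivity of the integral -/
theorem Int_sum0 (hd : 0 < d) (hc : c ∞ = ∞) {ι : Type} (S : Finset ι) {f : ι → Cc (sing P)}
    (h : ∀ k ∈ S, ∃ (h1 : Cc.IsDeg r (f k)) (h2 : Cc.d (f k) = 0), Int c h1 h2 = 0)
    (h1 : Cc.IsDeg r (∑ k ∈ S, f k)) (h2 : Cc.d (∑ k ∈ S, f k) = 0) : Int c h1 h2 = 0 := by
  classical
  induction S using Finset.induction_on with
  | empty =>
    refine Int_null hd hc h1 h2 ?_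
    rw [sum_empty]
    exact Coh.refl _
  | insert a S ha ih =>
    obtain ⟨g1, g2, g3⟩ := h a (mem_insert_self _ _)
    have hS : ∀ k ∈ S, ∃ (h1 : Cc.IsDeg r (f k)) (h2 : Cc.d (f k) = 0), Int c h1 h2 = 0 :=
      fun k hk => h k (mem_insert_of_mem hk)
    have e1 : Cc.IsDeg r (∑ k ∈ S, f k) := isDeg_sum S fun k hk => (hS k hk).1
    have e2 : Cc.d (∑ k ∈ S, f k) = 0 := d_sum0 S fun k hk => (hS k hk).2.1
    have e3 := ih hS e1 e2
    have h3 : Cc.IsDeg r (f a + ∑ k ∈ S, f k) := g1.add e1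
    have h4 : Cc.d (f a + ∑ k ∈ S, f k) = 0 := by rw [d_add, g2, e2, add_zero]
    have h5 : Int c h1 h2 = Int c h3 h4 :=
      Int_coh hd hc h1 h2 h3 h4 (Coh.of_eq (sum_insert ha))
    rw [h5, Int_add hd hc g1 g2 e1 e2 h3 h4, g3, e3, add_zero]

variable {w z : Cc (sing P)} {q s : ℕ}

/-- **the integral of the lower correction terms vanishes** -/
theorem Int_lower (hc : c ∞ = ∞) (hs : 0 < s) (hq : q = 2 ^ s - 1) (hdq : d = q + q)
    (h1 : Cc.IsDeg 1 w) (hw : Cc.d w = 0) (hz : Cc.IsDeg q z) (dz : Cc.d z = 0)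
    (g1 : Cc.IsDeg (q + q) (∑ k ∈ range q, Cc.cup 1 (Cc.pw w k) (Cc.cup (k + 1) z z)))
    (g2 : Cc.d (∑ k ∈ range q, Cc.cup 1 (Cc.pw w k) (Cc.cup (k + 1) z z)) = 0) :
    Int c g1 g2 = 0 := by
  have hs2 : 2 ≤ 2 ^ s := by
    calc 2 = 2 ^ 1 := rfl
      _ ≤ 2 ^ s := Nat.pow_le_pow_right (by decide) hs
  have hd : 0 < d := by omega
  have hu : ∀ k ∈ range s, ∃ (h1 : Cc.IsDeg (q + q) (Cc.cup (2 ^ (k + 1) - 1)
      (Cc.cup 1 (Cc.pw w (2 ^ k - 1)) z) (Cc.cup 1 (Cc.pw w (2 ^ k - 1)) z)))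
      (h2 : Cc.d (Cc.cup (2 ^ (k + 1) - 1)
      (Cc.cup 1 (Cc.pw w (2 ^ k - 1)) z) (Cc.cup 1 (Cc.pw w (2 ^ k - 1)) z)) = 0),
      Int c h1 h2 = 0 := by
    intro k hk
    rw [mem_range] at hk
    have hk1 : 0 < 2 ^ k := Nat.two_pow_pos k
    have hk2 : 2 ^ (k + 1) = 2 * 2 ^ k := by rw [pow_succ, mul_comm]
    have hk3 : 2 ^ (k + 1) ≤ 2 ^ s := Nat.pow_le_pow_right (by decide) hk
    have d1 : Cc.IsDeg (q + (2 ^ k - 1)) (Cc.cup 1 (Cc.pw w (2 ^ k - 1)) z) :=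
      (Cc.isDeg_pw_one h1 _).cup hz (by omega)
    have d2 : Cc.d (Cc.cup 1 (Cc.pw w (2 ^ k - 1)) z) = 0 := d_pwz hw dz _
    have d3 : Cc.IsDeg (q + q) (Cc.cup (2 ^ (k + 1) - 1)
      (Cc.cup 1 (Cc.pw w (2 ^ k - 1)) z) (Cc.cup 1 (Cc.pw w (2 ^ k - 1)) z)) :=
      d1.cup d1 (by omega)
    exact ⟨d3, d_cup_self0 _ d2, Int_sq hc (by omega) (by omega) _ d1 d2 _ _⟩
  have e1 : Cc.IsDeg (q + q) (∑ k ∈ range s, Cc.cup (2 ^ (k + 1) - 1)
      (Cc.cup 1 (Cc.pw w (2 ^ k - 1)) z) (Cc.cup 1 (Cc.pw w (2 ^ k - 1)) z)) :=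
    isDeg_sum _ fun k hk => (hu k hk).1
  have e2 : Cc.d (∑ k ∈ range s, Cc.cup (2 ^ (k + 1) - 1)
      (Cc.cup 1 (Cc.pw w (2 ^ k - 1)) z) (Cc.cup 1 (Cc.pw w (2 ^ k - 1)) z)) = 0 :=
    d_sum0 _ fun k hk => (hu k hk).2.1
  have e3 := cartan h1 hw dz s
  rw [← hq] at e3
  rw [Int_coh hd hc g1 g2 e1 e2 e3]
  exact Int_sum0 hd hc _ hu e1 e2

/-- **the integral of the correction** -/
theorem Int_corr (hc : c ∞ = ∞) (hs : 0 < s) (hq : q = 2 ^ s - 1) (hdq : d = q + q)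
    (h1 : Cc.IsDeg 1 w) (hw : Cc.d w = 0) (hz : Cc.IsDeg q z) (dz : Cc.d z = 0)
    (g1 : Cc.IsDeg (q + q) (∑ k ∈ range (q + 1), Cc.cup 1 (Cc.pw w k) (Cc.cup (k + 1) z z)))
    (g2 : Cc.d (∑ k ∈ range (q + 1), Cc.cup 1 (Cc.pw w k) (Cc.cup (k + 1) z z)) = 0)
    (k1 : Cc.IsDeg (q + q) (Cc.cup 1 (Cc.pw w q) z)) (k2 : Cc.d (Cc.cup 1 (Cc.pw w q) z) = 0) :
    Int c g1 g2 = Int c k1 k2 := by
  have hs2 : 2 ≤ 2 ^ s := by
    calc 2 = 2 ^ 1 := rfl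
      _ ≤ 2 ^ s := Nat.pow_le_pow_right (by decide) hs
  have hd : 0 < d := by omega
  have e1 : Cc.IsDeg (q + q) (∑ k ∈ range q, Cc.cup 1 (Cc.pw w k) (Cc.cup (k + 1) z z)) := by
    refine isDeg_sum _ fun k hk => ?_
    rw [mem_range] at hk
    have h3 : Cc.IsDeg (q + q - k) (Cc.cup (k + 1) z z) := hz.cup hz (by omega)
    exact (Cc.isDeg_pw_one h1 k).cup h3 (by omega)
  have e2 : Cc.d (∑ k ∈ range q, Cc.cup 1 (Cc.pw w k) (Cc.cup (k + 1) z z)) = 0 := by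
    refine d_sum0 _ fun k _ => ?_
    rw [d_cup_one, Cc.d_pw hw, d_cup_self0 _ dz, cup_zero_left, cup_zero_right, add_zero]
  have h3 : ∑ k ∈ range (q + 1), Cc.cup 1 (Cc.pw w k) (Cc.cup (k + 1) z z) =
      ∑ k ∈ range q, Cc.cup 1 (Cc.pw w k) (Cc.cup (k + 1) z z) + Cc.cup 1 (Cc.pw w q) z := by
    rw [sum_range_succ, cup_top hz]
  have e3 : Cc.IsDeg (q + q) (∑ k ∈ range q, Cc.cup 1 (Cc.pw w k) (Cc.cup (k + 1) z z) +
      Cc.cup 1 (Cc.pw w q) z) := e1.add k1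
  have e4 : Cc.d (∑ k ∈ range q, Cc.cup 1 (Cc.pw w k) (Cc.cup (k + 1) z z) +
      Cc.cup 1 (Cc.pw w q) z) = 0 := by rw [d_add, e2, k2, add_zero]
  rw [Int_coh hd hc g1 g2 e3 e4 (Coh.of_eq h3), Int_add hd hc e1 e2 k1 k2 e3 e4,
    Int_lower hc hs hq hdq h1 hw hz dz e1 e2, zero_add]

end Vale.Agent.P263.FR.H285
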