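import Vale.Agent.P263.FR.PhiA
import Vale.Agent.P263.KJ.SqPV

/-!
# P263, V5-E3: the integral of a square

`Int_sq` : `Int c (y ∪_j y) = 0` for a cocycle `y` of degree `p`, `0 < p < d`.
-/

open Finset OnePoint Topology

namespace Vale.Agent.P263.FR.H285

open Vale.Agent.P263.S hiding sn sn_add
open Vale.Agent.P263.E Vale.Agent.P263.G2 Vale.Agent.P263.TJ Vale.Agent.P263.KJ
open Vale.Agent.P263.T0 CupC

variable {P : Type} [TopologicalSpace P] [CompactSpace P] [T2Space P] {d i p r : ℕ}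

theorem add_add_self' {X : SS} (s t : Cc X) : s + (t + s) = t := by
  rw [add_comm t s, ← add_assoc, cc_add_self, zero_add]

theorem d_cup_self0 {X : SS} (j : ℕ) {x : Cc X} (h : Cc.d x = 0) : Cc.d (Cc.cup j x x) = 0 := by
  have h2 : Cc.d (Cc.cup j x x) = Cc.cup j (Cc.d x) x + Cc.cup j x (Cc.d x) :=
    CupC.d_cup_self (Cc.cupC X) j x
  rw [h2, h, cup_zero_left, cup_zero_right, add_zero]

theorem d_q' {X : SS} (j : ℕ) (x : Cc X) :
    Cc.d (Cc.cup j x x + Cc.cup (j + 1) x (Cc.d x)) = Cc.cup (j + 1) (Cc.d x) (Cc.d x) :=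
  CupC.d_q (Cc.cupC X) j x

/-- the square of the literal class on the cube -/
theorem DstN_cup_jR (j : ℕ) {y : Cc (sing P)} (hy : Cc.IsDeg p y) (dy : Cc.d y = 0) :
    (Cc.cupC (sing P)).Coh (DstN (i + 1) (Cc.pull (muT (i + 1) P)
      (Cc.cup (j + (i + 1)) (jR i hy dy).b (jR i hy dy).b))) (Cc.cup j y y) := by
  obtain ⟨a, h1, _, h3⟩ := sqP_muT i hy dy
  have hB : Cc.pull (muT (i + 1) P) (jR i hy dy).b = TJ.sn (i + 1) y + Cc.d a := h3
  have hS : Cc.d (TJ.sn (i + 1) y) = 0 := by rw [TJ.d_sn, dy, sn_zero']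
  have h4 := d_qQ (j + i) a hS
  have h5 : Cc.cup (j + i + 1) (TJ.sn (i + 1) y) (TJ.sn (i + 1) y) =
      TJ.sn (i + 1) (Cc.cup j y y) := cup_sn (i + 1) j y y
  have h6 : Cc.pull (muT (i + 1) P) (Cc.cup (j + (i + 1)) (jR i hy dy).b (jR i hy dy).b) =
      TJ.sn (i + 1) (Cc.cup j y y) + Cc.d (qQ (j + i) (TJ.sn (i + 1) y) a) := by
    rw [pull_cup, hB, h4, h5, add_add_self']
    rfl
  rw [h6, DstN_add, DstN_sn, DstN_d (h1.qQ _ _), add_comm]
  refine coh_iff.2 ⟨DstN (i + 1) (qQ (j + i) (TJ.sn (i + 1) y) a), ?_⟩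
  rw [add_assoc, cc_add_self, add_zero]

/-- **the integral of a square vanishes** -/
theorem Int_sq {c : C(Sph (d + (i + 1)), TT (i + 1) P)} (hc : c ∞ = ∞) (hp : 0 < p)
    (hpd : p < d) (j : ℕ) {y : Cc (sing P)} (hy : Cc.IsDeg p y) (dy : Cc.d y = 0)
    (hr : Cc.IsDeg r (Cc.cup j y y)) (dr : Cc.d (Cc.cup j y y) = 0) :
    Int c hr dr = 0 := by
  have hd : 0 < d := by omega
  obtain ⟨B, hB⟩ : ∃ B, B = (jR i hy dy).b := ⟨_, rfl⟩
  have hvn : Vn (bsT (i + 1) P) B := hB ▸ (jR i hy dy).vn_b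
  have hdb : Cc.d B = 0 := hB ▸ (jR i hy dy).d_b
  have hdeg : Cc.IsDeg (p + (i + 1)) B := hB ▸ jR_deg_b hy dy
  have hsq : (Cc.cupC (sing P)).Coh (DstN (i + 1) (Cc.pull (muT (i + 1) P)
      (Cc.cup (j + (i + 1)) B B))) (Cc.cup j y y) := hB ▸ DstN_cup_jR j hy dy
  clear hB
  have hd2 : Cc.d (Cc.cup (j + (i + 1)) B B) = 0 := d_cup_self0 _ hdb
  have hv2 : Vn (bsT (i + 1) P) (Cc.cup (j + (i + 1)) B B) := hvn.cup_left _ _
  refine (Int_of hd hc hv2 hd2 hr dr hsq).symm.trans ?_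
  obtain ⟨a, ha⟩ := coh_zero.1 (DstN_cu_null hp (by omega) hc hvn hdb hdeg)
  obtain ⟨w', h1, h2⟩ := DstN_exact (i + 1) (w := Cc.pull (cu c) B)
    ((hvn.pull (cu c)).mono fun x hx => cu_base hc x hx) (by rw [← pull_d, hdb, pull_zero]) ha
  have h3 : Cc.pull (cu c) (Cc.cup (j + (i + 1)) B B) =
      Cc.d (Cc.cup (j + i) w' w' + Cc.cup (j + i + 1) w' (Cc.d w')) := by
    rw [d_q', pull_cup, h2]
    rfl
  rw [h3, DstN_d ((h1.cup_left _ _).add (h1.cup_left _ _))]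
  rw [evf hd (coh_zero.2 ⟨_, rfl⟩)]
  exact evc_zero _

end Vale.Agent.P263.FR.H285
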